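import Crest.Agent.X261.Fin.Main
import Crest.Agent.X261.GrL.Lim

/-!
# X261 / Fin (helper10): `FIN`, unconditional
-/

set_option autoImplicit false
set_option linter.unusedSectionVars false

open Set Filter Topology Metric

namespace Crest.Agent.X261.Fin

open Crest.Agent.R275.Geo
open Crest.Agent.R281.Kp_487 (KP)
open Crest.Agent.X261.BT Crest.Agent.X261.Cov.U Crest.Agent.X261.Pole2 Crest.Agent.X261.Ans
open Crest.Agent.X261.Top (Tube)

noncomputable section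

variable {n p : ℕ} {M : Type} [TopologicalSpace M] [T2Space M] {B : Atl n M} {H : KP B}
variable [MeasurableSpace M] [BorelSpace M] [Countable B.ι]

theorem limI (hH : H.Pos) (S : UB H) : LimI S := by
  intro φ h1 h2 h3 h4
  have hF : GrL.Fam H fun s : ℕ => φ s :=
    ⟨fun s => h1 s, fun s => h2 s, fun x s t h => h3 x (Nat.cast_le.2 h), h4.imp fun _ h =>
      ⟨h.1, fun s => h.2 s⟩⟩
  have ht : (0 : ℝ) < 2 * n + 1 := by positivity
  refine ⟨_, hF.cpt hH S ht.le, hF.an ht.le, fun K hK hd => ?_⟩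
  obtain ⟨C, d₀, d0, h5⟩ := GrL.off S ht hK hd
  refine ⟨C, min d₀ 1, lt_min d0 one_pos, fun j q hq hq' d h6 h7 => ?_⟩
  obtain ⟨y, h8, h9⟩ := h5 j q hq hq' d h6 (h7.trans (min_le_left _ _))
  refine ⟨y, h8, fun s => ?_⟩
  have a1 := EReal.coe_le_coe_iff.1 (h9.trans (GrL.lim_le _ ⌈s⌉₊ y))
  have a2 : φ (⌈s⌉₊ : ℕ) y ≤ φ s y := h3 y (Nat.le_ceil s)
  have a3 := mul_le_mul_of_nonpos_right
    (show 2 * (n : ℝ) / (2 * n + 1) ≤ 1 by rw [div_le_one ht]; linarith)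
    (Real.log_nonpos h6.le (h7.trans (min_le_right _ _)))
  linarith

/-- **FIN** -/
theorem fin {G : Type} [Group G] [MulAction G M] (hH : H.Pos) (hs : Slow H) (S : UB H)
    (𝒯 : Tube B G p) {x₀ x : M} (h₀ : x₀ ∈ 𝒯.M0) (hx : x ∈ 𝒯.T x₀) (hb : x ∉ 𝒯.Bad) {c : ℝ}
    (hc : 0 < c) : FIN H (𝒯.T x₀) (𝒯.π x₀) (𝒯.π x₀ x) c :=
  fin_of (limI hH S) hH hs 𝒯 h₀ hx hb hc

/-- **FIN** on a covering of a compact Kähler manifold -/
theorem fin_cov {X : Type} [TopologicalSpace X] [T2Space X] [CompactSpace X] {A : Atl n X}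
    [Finite A.ι] {G : Type} [Group G] [Countable G] (D : R273.UCov_914.MonD A G)
    (P : Part A) {H : KP A} (hH : H.Pos) (𝒯 : Tube (D.atl G) G p) {x₀ x : D.cov G}
    (h₀ : x₀ ∈ 𝒯.M0) (hx : x ∈ 𝒯.T x₀) (hb : x ∉ 𝒯.Bad) {c : ℝ} (hc : 0 < c) :
    FIN (Cov.K.pullKP D G H) (𝒯.T x₀) (𝒯.π x₀) (𝒯.π x₀ x) c := by
  borelize (D.cov G)
  obtain ⟨S⟩ := exists_ub D G hH
  exact fin (Cov.K.pos_pull D G hH) (Cov.K.slow_pull D G P hH) S 𝒯 h₀ hx hb hc

end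

end Crest.Agent.X261.Fin
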