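import Crest.Agent.X261.Fin.Reg
import Crest.Agent.X261.Pole2.Defs

/-!
# X261 / Fin (helper10), part Core: `FIN` from a family with a pole and a good shell
-/

set_option autoImplicit false
set_option linter.unusedSectionVars false

open Set Filter Topology Metric
open scoped ContDiff

namespace Crest.Agent.X261.Fin

open Crest.Agent.R275.Geo
open Crest.Agent.R281.Kp_487 (KP)
open Crest.Agent.X261.BT Crest.Agent.X261.BT.Env Crest.Agent.X261.Cov.U Crest.Agent.X261.Pole2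

noncomputable section

variable {n p : ℕ} {M : Type} [TopologicalSpace M] [T2Space M] {B : Atl n M} {H : KP B} (S : UB H)
variable {T : Set M} {π : M → Cn p}

theorem tendsto_exp_neg : Tendsto (fun τ : ℝ => Real.exp (-τ)) atTop (𝓝[>] 0) :=
  tendsto_nhdsWithin_iff.2 ⟨Real.tendsto_exp_neg_atTop_nhds_zero,
    Eventually.of_forall fun _ => Real.exp_pos _⟩

/-- `π` moves little along small balls -/
theorem ev_near (h : TB B T π) {L : Set M} (hL : IsCompact L) (hLT : L ⊆ T) :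
    ∀ᶠ τ in atTop, ∀ x ∈ L, ∀ z, Nb S (Real.exp (-τ)) x z →
      z ∈ T ∧ ‖π z - π x‖ ≤ Real.exp (-(τ / 2)) := by
  have hR := S.R_pos
  have key : ∀ j, ∀ᶠ τ in atTop, ∀ x ∈ L, x ∈ S.W j (2 * S.R) →
      ∀ z ∈ ccb B (S.ch j) (B.e (S.ch j) x) (Real.exp (-τ)),
        z ∈ T ∧ ‖π z - π x‖ ≤ Real.exp (-(τ / 2)) := fun j => by
    have h1 : IsCompact (B.e (S.ch j) '' (L ∩ S.W j (2 * S.R))) :=
      cpt_im (hL.inter (S.isCompact_W j (by linarith))) fun x hx => hx.2.1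
    obtain ⟨ρ, hρ, h2⟩ := h1.exists_cthickening_subset_open (isOpen_chU h.op (S.ch j))
      (by rintro _ ⟨x, hx, rfl⟩; exact mem_chU hx.2.1 (hLT hx.1))
    obtain ⟨Λ, hΛ⟩ := exists_lip (h1.cthickening (r := ρ)) fun z hz =>
      ((h.an (S.ch j) (h2 hz)).contDiffAt (n := ∞)).restrict_scalars ℝ
    filter_upwards [tendsto_exp_neg.eventually (ev_lt hρ), (Real.tendsto_exp_atTop.comp
      (tendsto_id.atTop_div_const two_pos)).eventually (eventually_ge_atTop Λ)]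
      with τ h3 h4 x hx hx' z hz
    have h5 : B.e (S.ch j) z ∈ cthickening ρ (B.e (S.ch j) '' (L ∩ S.W j (2 * S.R))) :=
      closedBall_subset_cthickening (mem_image_of_mem _ (mem_inter hx hx')) ρ
        (closedBall_subset_closedBall h3.le hz.2)
    have h6 := hΛ _ h5 _ (self_subset_cthickening _ (mem_image_of_mem _ ⟨hx, hx'⟩))
    have h7 := (h2 h5).2
    rw [mem_preimage, (B.e _).left_inv hz.1] at h7
    rw [(B.e _).left_inv hz.1, (B.e _).left_inv hx'.1] at h6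
    refine ⟨h7, h6.trans ((mul_le_mul h4 (mem_ccb.1 hz).2 (norm_nonneg _)
      (Real.exp_pos _).le).trans (le_of_eq ?_))⟩
    rw [Function.comp, ← Real.exp_add, id]
    congr 1
    ring
  filter_upwards [(eventually_all_finite (S.lf L hL)).2 fun j _ => key j] with τ hτ x hx z hz
  obtain ⟨j, h1, h2⟩ := hz
  exact hτ j ⟨x, ccb_mono (by linarith) h1, hx⟩ x hx h1 z h2

/-- a family of competitors with a pole of level `c` and a shell where it is not too small -/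
structure Good (T : Set M) (π : M → Cn p) (y : Cn p) (c : ℝ) (φ : ℝ → M → ℝ) : Prop where
  pp : ∀ s, PP H (φ s)
  le : ∀ s x, φ s x ≤ 0
  pole : ∃ b r₀ : ℝ, 0 < r₀ ∧ ∀ s r, r ≤ r₀ → Real.exp (-s) ≤ r → ∀ x ∈ T, ‖π x - y‖ ≤ r →
    φ s x ≤ c * Real.log r + b
  shell : ∃ r₂ C d₀ : ℝ, 0 < r₂ ∧ ‖y‖ + r₂ < 1 ∧ 0 < d₀ ∧ ∀ s, ∀ q ∈ T, ‖π q - y‖ = r₂ →
    ∀ d, 0 < d → d ≤ d₀ → ∃ z, Nb S d q z ∧ Real.log d - C ≤ φ s z

theorem fin_core (hH : H.Semipos) (h : TB B T π) {y : Cn p}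
    (hφ : ∀ c : ℝ, 0 < c → ∃ φ, Good S T π y c φ) {c : ℝ} (hc : 0 < c) : FIN H T π y c := by
  obtain ⟨A, C₀, hA, hreg⟩ := reg S hH (κ := 2) zero_le_two
  have A0 : 0 < A := one_pos.trans_le hA
  obtain ⟨θ, θ0, hθ⟩ : ∃ θ : ℝ, 0 < θ ∧ θ * (4 * (c * A + 1)) = 1 :=
    ⟨(4 * (c * A + 1))⁻¹, by positivity, inv_mul_cancel₀ (by positivity)⟩
  have cA : 0 < θ * (c * A) := by positivity
  obtain ⟨φ, hpp, hle, ⟨b, r₀, r0, hp⟩, r₂, C, d₀, r2, hr₂, d0, hs⟩ := hφ (2 / θ) (by positivity)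
  have t1 : Tendsto (fun τ : ℝ => Real.exp (-(θ * τ))) atTop (𝓝[>] 0) :=
    tendsto_exp_neg.comp (tendsto_id.const_mul_atTop θ0)
  set b' : ℝ := max (2 / θ * Real.log 2 + b) 0 with hb'
  obtain ⟨τ, a1, a2, a3, a4, a5, a6, a7⟩ := ((tendsto_exp_neg.eventually (ev_small S)).and
    ((ev_near S h (h.cpt_ball hr₂) fun x hx => hx.1).and ((tendsto_exp_neg.eventually (ev_lt d0)).and
    ((t1.eventually (ev_lt r2)).and ((t1.eventually (ev_lt (half_pos r0))).and
    ((eventually_ge_atTop 0).and (eventually_gt_atTop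
      (2 * (C + C₀ + b' + A * (c * Real.log (r₂ ^ 2))))))))))).exists
  have hτ : 0 ≤ τ := a6
  obtain ⟨w, w1, w2, w3⟩ := hreg _ a1 (fun x => max (φ τ x) (2 * Real.log (Real.exp (-τ))))
    ⟨(hpp τ).qp.max (QP.const hH isOpen_univ _), HasCompactSupport.intro (hpp τ).cpt fun x hx => by
      rw [image_eq_zero_of_notMem_tsupport hx, Real.log_exp]
      exact max_eq_left (by linarith)⟩ (fun x => le_max_right _ _)
    fun x => max_le (hle τ x) (by rw [Real.log_exp]; linarith)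
  rw [Real.log_exp] at w2 w3
  have e1 : Real.log (Real.exp (-(θ * τ)) ^ 2) = -(2 * (θ * τ)) := by
    rw [Real.log_pow, Real.log_exp]; push_cast; ring
  have i0 : 0 < A⁻¹ := inv_pos.2 A0
  have θτ : 0 ≤ θ * (c * A) * τ := by positivity
  have θτ' : 0 ≤ θ * τ := by positivity
  have e2 : θ * (4 * (c * A + 1)) * τ = τ := by rw [hθ, one_mul]
  obtain ⟨a, u1, u2⟩ := exists_between (show -(2 * τ) + b' + A * (c * (2 * (θ * τ))) <
    -τ - C - C₀ - A * (c * Real.log (r₂ ^ 2)) by nlinarith)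
  refine ⟨fun x => A⁻¹ * w x, ⟨(w1.qp.smul i0.le).of_wt fun i z => ?_, w1.cpt.mul_left⟩,
    fun x => mul_nonpos_of_nonneg_of_nonpos i0.le (w3 x 0 fun z _ => max_le (hle τ z) (by linarith)),
    Real.exp (-(θ * τ)), r₂, A⁻¹ * a, Real.exp_pos _, a4, hr₂, fun x hx hx' => ?_,
    fun x hx hx' => ?_⟩
  · rw [wt_sc, wt_sc, ← mul_assoc, inv_mul_cancel₀ A0.ne', one_mul]
  · have h1 := w3 x (-(2 * τ) + b') fun z hz => by
      obtain ⟨b1, b2⟩ := a2 x ⟨hx, hx'.le.trans a4.le⟩ z hz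
      have b3 : Real.exp (-(τ / 2)) ≤ Real.exp (-(θ * τ)) := Real.exp_le_exp.2 (by nlinarith)
      have b4 : Real.exp (-τ) ≤ Real.exp (-(τ / 2)) := Real.exp_le_exp.2 (by linarith)
      have b5 := hp τ (2 * Real.exp (-(θ * τ))) (by linarith) (by linarith [Real.exp_pos (-τ)]) z b1
        (by linarith [norm_sub_le_norm_sub_add_norm_sub (π z) (π x) y])
      rw [Real.log_mul two_ne_zero (Real.exp_pos _).ne', Real.log_exp, mul_add, mul_neg,
        ← mul_assoc, div_mul_cancel₀ _ θ0.ne'] at b5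
      exact max_le (by linarith [le_max_left (2 / θ * Real.log 2 + b) 0])
        (by linarith [le_max_right (2 / θ * Real.log 2 + b) 0])
    rw [e1, inv_mul_lt_iff₀ A0, mul_add, ← mul_assoc A, mul_inv_cancel₀ A0.ne']
    linarith
  · obtain ⟨z, h1, h2⟩ := hs τ x hx hx' _ (Real.exp_pos _) a3.le
    have h3 := w2 x z h1
    rw [Real.log_exp] at h2
    rw [lt_inv_mul_iff₀ A0, mul_add, ← mul_assoc A, mul_inv_cancel₀ A0.ne']
    linarith [le_max_left (φ τ z) (2 * -τ)]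

end

end Crest.Agent.X261.Fin
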