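import Crest.Agent.X261.Fin.Core
import Crest.Agent.X261.Pole2.Glue
import Crest.Agent.X261.Gr.Vol
import Crest.Agent.X261.Ans.Comp
import Crest.Agent.X261.Ans.Man4

/-!
# X261 / Fin (helper10), part Main: `FIN` at the very general points of a tube
-/

set_option autoImplicit false
set_option linter.unusedSectionVars false

open Set Filter Topology Metric

namespace Crest.Agent.X261.Fin

open Crest.Agent.R275.Geo
open Crest.Agent.R281.Kp_487 (KP)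
open Crest.Agent.X261.BT Crest.Agent.X261.Cov.U Crest.Agent.X261.Pole2 Crest.Agent.X261.Ans
open Crest.Agent.X261.Top (Tube)

noncomputable section

variable {n p : ℕ} {M : Type} [TopologicalSpace M] [T2Space M] {B : Atl n M} {H : KP B}
variable {G : Type} [Group G] [MulAction G M]

/-- the part of a compact analytic set off a very general fibre is closed -/
theorem closed_diff (𝒯 : Tube B G p) {x : M} (hx : x ∈ 𝒯.M0) (hb : x ∉ 𝒯.Bad) {Z : Set M}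
    (hZ : IsCompact Z) (hA : (HA.of B).An univ Z) : IsClosed (Z \ 𝒯.W x) := by
  have h1 := (HA.an_sUnion_comp isOpen_univ hA
    (T := {Y | (HA.of B).Comp univ Z Y ∧ Disjoint Y (𝒯.W x)}) fun Y hY => hY.1).isClosed
  convert h1 using 1
  refine subset_antisymm (fun z hz => ?_) ?_
  · obtain ⟨Y, hY, hzY⟩ := HA.comp_cover isOpen_univ hA (mem_univ z) hz.1
    refine ⟨Y, ⟨hY, disjoint_left.2 fun w h2 h3 => hz.2 ?_⟩, hzY⟩
    obtain ⟨h4, d, h5⟩ := hY.irr isOpen_univ hA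
    have h6 := hY.an isOpen_univ hA
    exact Brg.tube_max 𝒯 hx hb ((hZ.of_isClosed_subset h6.isClosed h4).union
      (Brg.tube_W_compact 𝒯 hx)) (IsPreconnected.union w h2 h3 (by simpa using h5.preconnected)
      (𝒯.W_conn x hx)) (h6.union (Brg.tube_an 𝒯 hx)) (Or.inr (𝒯.W_mem x hx)) (Or.inl hzY)
  · rintro z ⟨Y, hY, hzY⟩
    exact ⟨(hY.1.irr isOpen_univ hA).1 hzY, disjoint_left.1 hY.2 hzY⟩

/-- a shell around a very general fibre which misses a given compact analytic set -/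
theorem shell (𝒯 : Tube B G p) {x₀ x : M} (h₀ : x₀ ∈ 𝒯.M0) (hx : x ∈ 𝒯.T x₀) (hb : x ∉ 𝒯.Bad)
    {Z : Set M} (hZ : IsCompact Z) (hA : (HA.of B).An univ Z) :
    ∃ r, 0 < r ∧ ‖𝒯.π x₀ x‖ + r < 1 ∧ ∀ q ∈ 𝒯.T x₀, ‖𝒯.π x₀ q - 𝒯.π x₀ x‖ = r → q ∉ Z := by
  have h := tb_of_tube 𝒯 h₀
  have h1 := h.lt_one hx
  have h2 : ‖𝒯.π x₀ x‖ + (1 - ‖𝒯.π x₀ x‖) / 2 < 1 := by linarith
  have h3 := (h.cpt_ball h2).inter_right (closed_diff 𝒯 (𝒯.T_sub x₀ h₀ hx) hb hZ hA)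
  rw [𝒯.π_fib x₀ h₀ x hx] at h3
  obtain ⟨ε, h4, h5⟩ := h3.exists_forall_le' (f := fun q => ‖𝒯.π x₀ q - 𝒯.π x₀ x‖) (a := 0)
    (((h.cont.mono fun q hq => hq.1.1).sub continuousOn_const).norm)
    fun q hq => norm_pos_iff.2 (sub_ne_zero.2 fun h6 => hq.2.2 ⟨hq.1.1, h6⟩)
  have h6 : 0 < min (ε / 2) ((1 - ‖𝒯.π x₀ x‖) / 2) := lt_min (half_pos h4) (by linarith)
  refine ⟨_, h6, by linarith [min_le_right (ε / 2) ((1 - ‖𝒯.π x₀ x‖) / 2)], fun q hq h7 h8 => ?_⟩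
  have h9 := h5 q ⟨⟨hq, h7.le.trans (min_le_right _ _)⟩, h8, fun h9 => by
    rw [h9.2, sub_self, norm_zero] at h7; exact h6.ne h7⟩
  linarith [min_le_left (ε / 2) ((1 - ‖𝒯.π x₀ x‖) / 2)]

variable [MeasurableSpace M] [BorelSpace M] [Countable B.ι]

/-- the limit of a decreasing family of bounded volume has small poles off a compact analytic set -/
def LimI (S : UB H) : Prop :=
  ∀ φ : ℝ → M → ℝ, (∀ s, QP H univ (φ s)) → (∀ s x, φ s x ≤ 0) → (∀ x, Antitone fun s => φ s x) →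
    (∃ V : ENNReal, V < ⊤ ∧ ∀ s, MA H (fun _ => 0) {x | φ s x < 0} ≤ V) →
    ∃ Z : Set M, IsCompact Z ∧ (HA.of B).An univ Z ∧ ∀ K : Set M, IsCompact K → Disjoint K Z →
      ∃ C d₀ : ℝ, 0 < d₀ ∧ ∀ j, ∀ q ∈ K, q ∈ S.W j (7 * S.R) → ∀ d, 0 < d → d ≤ d₀ →
        ∃ y ∈ cb B (S.ch j) (B.e (S.ch j) q) d, ∀ s, Real.log d - C ≤ φ s y

theorem good_of {S : UB H} (hL : LimI S) (hH : H.Pos) (hs : Slow H) {T : Set M} {π : M → Cn p}
    (h : TB B T π) {y : Cn p} (hy : ‖y‖ < 1) (hsh : ∀ Z : Set M, IsCompact Z → (HA.of B).An univ Z →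
      ∃ r, 0 < r ∧ ‖y‖ + r < 1 ∧ ∀ q ∈ T, ‖π q - y‖ = r → q ∉ Z) {c : ℝ} (hc : 0 < c) :
    ∃ φ, Good S T π y c φ := by
  classical
  have hS := pos_semi hH
  obtain ⟨r, r0, hr⟩ : ∃ r : ℝ, 0 < r ∧ ‖y‖ + r < 1 := ⟨(1 - ‖y‖) / 2, by linarith, by linarith⟩
  set s₀ : ℝ := -Real.log (r ^ 2 / 2) with hs₀
  set F : ℝ → M → ℝ := fun s x =>
    -(c / 2 * Real.log (r ^ 2)) + c / 2 * Ls (max (2 * s) s₀) y (π x) with hF
  set V : ℝ → M → ℝ := fun s x => if x ∈ T then min 0 (F s x) else 0 with hV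
  have c2 : 0 ≤ c / 2 := by positivity
  have hlog : ∀ s w, r < ‖w - y‖ → Ls (max (2 * s) s₀) y w = Real.log (‖w - y‖ ^ 2) :=
    fun s w hw => Ls_log (by
      have h1 := Real.exp_le_exp.2 (neg_le_neg (le_max_right (2 * s) s₀))
      rw [hs₀, neg_neg, Real.exp_log (by positivity)] at h1
      linarith [pow_le_pow_left₀ r0.le hw.le 2])
  obtain ⟨v1, v2⟩ := Gr.Vol.vol_fam (F := F) (V := V) (f₀ := F 0) hH hs le_rfl
    (fun s => (h.qp_Ls hS c2 _ _ y).sc_one) (h.qp_Ls hS c2 _ _ y).sc_one (h.cpt_ball hr)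
    (fun x hx => hx.1) (fun s x hx hx' => by
      have h1 : r < ‖π x - y‖ := not_le.1 fun h2 => hx' ⟨hx, h2⟩
      simp only [hF, hlog _ _ h1, true_and]
      linarith [mul_le_mul_of_nonneg_left
        (Real.log_le_log (by positivity) (pow_le_pow_left₀ r0.le h1.le 2)) c2])
    (fun s x hx => if_pos hx) fun s x hx => if_neg hx
  have V0 : ∀ s x, V s x ≤ 0 := fun s x => by
    simp only [hV]
    split_ifs
    exacts [min_le_left _ _, le_rfl]
  have e0 : ∀ s x, env H (V s) x ≤ 0 := fun s x => ((v1 s).1.env_le hS x).trans (V0 s x)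
  obtain ⟨Z, z1, z2, z3⟩ := hL (fun s => env H (V s)) (fun s => (v1 s).1.qp hH) e0
    (fun x s t hst => env_mono ((v1 t).1.hasC hS) (fun z => by
      simp only [hV, hF]
      split_ifs
      · exact min_le_min le_rfl (add_le_add le_rfl (mul_le_mul_of_nonneg_left
          (Ls_step (max_le_max (by linarith) le_rfl) y _).1 c2))
      · exact le_rfl) x) v2
  obtain ⟨r₂, a1, a2, a3⟩ := hsh Z z1 z2
  obtain ⟨C, d₀, d0, a4⟩ := z3 {x | x ∈ T ∧ π x ∈ sphere y r₂} (h.cpt_pre isClosed_sphere a2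
    fun w hw => by linarith [norm_le_norm_add_norm_sub' w y, mem_sphere_iff_norm.1 hw])
    (disjoint_left.2 fun q hq => a3 q hq.1 (mem_sphere_iff_norm.1 hq.2))
  refine ⟨fun s => env H (V s), fun s => hs.pp_env hH (v1 s).1.cont
    (HasCompactSupport.intro (h.cpt_ball hr) (v1 s).2), e0,
    ⟨-(c / 2 * Real.log (r ^ 2)) + c / 2 * Real.log 2, 1, one_pos, fun s ρ _ h1 x hx h2 => ?_⟩,
    r₂, C, d₀, a1, a2, d0, fun s q hq h1 d h2 h3 => ?_⟩
  · have ρ0 : 0 < ρ := (Real.exp_pos _).trans_le h1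
    have b1 := (v1 s).1.env_le hS x
    have b2 : V s x ≤ F s x := (if_pos hx).trans_le (min_le_right _ _)
    have b3 := (Ls_bd (max (2 * s) s₀) y (π x)).2
    have b4 : 1 ≤ Real.exp (max (2 * s) s₀) * ρ ^ 2 := by
      have b5 := mul_le_mul (Real.exp_le_exp.2 (le_max_left (2 * s) s₀))
        (pow_le_pow_left₀ (Real.exp_pos _).le h1 2) (by positivity) (Real.exp_pos _).le
      rwa [← Real.exp_nat_mul, ← Real.exp_add, show 2 * s + ((2 : ℕ) : ℝ) * -s = 0 by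
        push_cast; ring, Real.exp_zero] at b5
    have b5 := Real.log_le_log (lt_max_of_lt_right one_pos) (max_le (mul_le_mul_of_nonneg_left
      (pow_le_pow_left₀ (norm_nonneg _) h2 2) (Real.exp_pos (max (2 * s) s₀)).le) b4)
    rw [Real.log_mul (Real.exp_pos _).ne' (by positivity), Real.log_exp, Real.log_pow] at b5
    have b6 := mul_le_mul_of_nonneg_left
      (show Ls (max (2 * s) s₀) y (π x) ≤ 2 * Real.log ρ + Real.log 2 by push_cast at b5; linarith) c2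
    simp only [hF] at b2
    linarith
  · obtain ⟨j, hj⟩ := S.cover q
    have hR := S.R_pos
    obtain ⟨z, b1, b2⟩ := a4 j q ⟨hq, mem_sphere_iff_norm.2 h1⟩
      (ccb_mono (by linarith) (cb_sub_ccb hj)) d h2 h3
    exact ⟨z, ⟨j, ccb_mono (by linarith) (cb_sub_ccb hj), cb_sub_ccb b1⟩, b2 s⟩

/-- **FIN** from the limit theorem -/
theorem fin_of {S : UB H} (hL : LimI S) (hH : H.Pos) (hs : Slow H) (𝒯 : Tube B G p) {x₀ x : M}
    (h₀ : x₀ ∈ 𝒯.M0) (hx : x ∈ 𝒯.T x₀) (hb : x ∉ 𝒯.Bad) {c : ℝ} (hc : 0 < c) :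
    FIN H (𝒯.T x₀) (𝒯.π x₀) (𝒯.π x₀ x) c :=
  fin_core S (pos_semi hH) (tb_of_tube 𝒯 h₀) (fun _ h => good_of hL hH hs (tb_of_tube 𝒯 h₀)
    ((tb_of_tube 𝒯 h₀).lt_one hx) (fun _ => shell 𝒯 h₀ hx hb) h) hc

end

end Crest.Agent.X261.Fin
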