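import Crest.Agent.X261.BT.EnvA
import Crest.Agent.X261.Cov.U

/-!
# X261 / Fin (helper10), part REG: regularisation at a small scale

On a manifold with uniform balls, a quasi-psh function with values in `[κ log d, 0]` is replaced by
its supremum over the balls of radius `d`, up to constants which do not depend on `d`.
-/

set_option autoImplicit false
set_option linter.unusedSectionVars false

open Set Filter Topology Metric
open scoped ContDiff

namespace Crest.Agent.X261.Fin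

open Crest.Agent.R275.Geo
open Crest.Agent.R281.Kp_487 (KP pot wt_contDiffAt)
open Crest.Agent.R257.HoB_843 (lvE lvE_comp)
open Crest.Agent.R257.Glue2_101 (lvE_add lvE_const_mul)
open Crest.Agent.R273.YauCh_635 (two_le_inf)
open Crest.Agent.X261.BT Crest.Agent.X261.BT.Env Crest.Agent.X261.Cov.U

noncomputable section

variable {n : ℕ} {M : Type} [TopologicalSpace M] {B : Atl n M} {H : KP B} (S : UB H)

/-- `y` is `d`-close to `x` in one of the uniform charts -/
def Nb (d : ℝ) (x y : M) : Prop :=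
  ∃ j, x ∈ S.W j (2 * S.R) ∧ y ∈ ccb B (S.ch j) (B.e (S.ch j) x) d

theorem Nb.self {d : ℝ} (hd : 0 ≤ d) (x : M) : Nb S d x x :=
  let ⟨j, hj⟩ := S.cover x
  ⟨j, ccb_mono (by linarith [S.R_pos]) (cb_sub_ccb hj), hj.1, mem_closedBall_self hd⟩

/-- the scale is small -/
structure Small (d : ℝ) : Prop where
  pos : 0 < d
  one : d ≤ 1
  lt : S.L * (2 * d) < S.R
  logR : Real.log d ≤ 2 * Real.log S.R
  logC : Real.log d ≤ -S.C

theorem ev_small : ∀ᶠ d in 𝓝[>] (0 : ℝ), Small S d := by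
  have hL := S.L_pos
  filter_upwards [self_mem_nhdsWithin, ev_lt one_pos,
    ev_lt (show 0 < S.R / (2 * S.L) by have := S.R_pos; positivity),
    Real.tendsto_log_nhdsGT_zero.eventually (eventually_le_atBot (2 * Real.log S.R)),
    Real.tendsto_log_nhdsGT_zero.eventually (eventually_le_atBot (-S.C))] with d h1 h2 h3 h4 h5
  exact ⟨h1, h2.le, by rw [lt_div_iff₀ (by positivity)] at h3; linarith, h4, h5⟩

variable {S}

theorem Small.lt' {d : ℝ} (h : Small S d) : 2 * d < S.R :=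
  (le_mul_of_one_le_left (by linarith [h.pos]) S.one_le_L).trans_lt h.lt

theorem lvE_sub_sq (c z v : Cn n) : lvE (fun x : Cn n => ‖x - c‖ ^ 2) z v = ‖v‖ ^ 2 := by
  have h1 := lvE_comp (T := fun x : Cn n => x - c) (u := fun x : Cn n => ‖x‖ ^ 2) (z := z)
    (by fun_prop) (contDiff_norm_sq ℝ).contDiffAt v
  rw [lvE_nsq, fderiv_sub_const, fderiv_fun_id] at h1
  exact h1

theorem qp_sq (j : S.J) {r a : ℝ} (hr : r ≤ 8 * S.R) (ha : 0 ≤ a) :
    QP (sc (a / S.m) H) (S.V j r) fun y => -a * ‖B.e (S.ch j) y - S.c j‖ ^ 2 := by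
  have ho := isOpen_chU (A := B) (isOpen_cb (i := S.ch j) (z := S.c j) (r := r)) (S.ch j)
  refine QP.of_chart1 isOpen_cb ?_ (i := S.ch j) (fun y hy => hy.1) (PL.congr ho (PL.of_lvE ho
    (f := fun z => a / S.m * H.wt (S.ch j) z + -a * ‖z - S.c j‖ ^ 2) fun z hz => ?_) fun z hz => ?_)
  · exact continuousOn_const.mul
      (((((B.e _).continuousOn.mono fun y hy => hy.1).sub continuousOn_const).norm).pow 2)
  · have h1 := wt_contDiffAt H (S.ch j) hz.1
    have h2 : ContDiffAt ℝ ∞ (fun z : Cn n => ‖z - S.c j‖ ^ 2) z :=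
      (contDiff_norm_sq ℝ).contDiffAt.comp z (contDiffAt_id.sub contDiffAt_const)
    refine ⟨((contDiffAt_const.mul h1).add (contDiffAt_const.mul h2)).of_le two_le_inf, fun v => ?_⟩
    rw [lvE_add (contDiffAt_const.mul h1) (contDiffAt_const.mul h2), lvE_const_mul h1,
      lvE_const_mul h2, lvE_sub_sq]
    have h3 := mul_le_mul_of_nonneg_left (S.low j z (closedBall_subset_closedBall hr
      (ball_subset_closedBall ((symm_mem_cb hz.1).1 hz.2))) v) (div_nonneg ha S.m_pos.le)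
    rw [← mul_assoc, div_mul_cancel₀ _ S.m_pos.ne'] at h3
    linarith
  · rw [pot_apply, wt_sc, (B.e _).right_inv hz.1]

theorem abs_u_sub {j : S.J} {x y : M} (hx : x ∈ S.W j (8 * S.R)) (hy : y ∈ S.W j (8 * S.R))
    {d : ℝ} (h : B.e (S.ch j) y ∈ closedBall (B.e (S.ch j) x) d) :
    |H.u (S.ch j) y - H.u (S.ch j) x| ≤ S.C * d := by
  have h1 := S.wlip j _ hy.2 _ hx.2
  simp only [KP.wt, (B.e _).left_inv hx.1, (B.e _).left_inv hy.1] at h1
  exact h1.trans (mul_le_mul_of_nonneg_left (mem_closedBall_iff_norm.1 h) S.C_pos.le)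

section one

variable {φ : M → ℝ} {d b : ℝ} {j k : S.J} {x y : M}

theorem sI_le (hd : 0 ≤ d) (hd' : d ≤ S.R) (hx : x ∈ S.W j (7 * S.R))
    (h : ∀ y ∈ ccb B (S.ch j) (B.e (S.ch j) x) d, φ y ≤ b) : sI H d φ (S.ch j) x ≤ b + S.C * d := by
  rw [sI, sub_le_iff_le_add]
  refine sb_le hd fun w hw => ?_
  have h1 := S.ball_sub hx (d := d) (by linarith) hw
  have h2 := S.sub j h1
  have h3 := abs_u_sub (ccb_mono (by linarith) hx) ((symm_mem_ccb h2).2 h1) (d := d)
    (by rwa [(B.e _).right_inv h2])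
  have h4 := h _ ((symm_mem_ccb h2).2 hw)
  rw [pot_apply, KP.wt]
  linarith [(abs_le.1 h3).2]

theorem le_sI (hφ : Continuous φ) (hd : 0 ≤ d) (hd' : d ≤ S.R) (hx : x ∈ S.W j (7 * S.R))
    (hy : y ∈ ccb B (S.ch j) (B.e (S.ch j) x) d) : φ y - S.C * d ≤ sI H d φ (S.ch j) x := by
  have h1 := S.ball_sub hx (d := d) (by linarith)
  have h2 := le_sb (cont_pot H hφ _) (h1.trans (S.sub j)) hy.2
  have h3 := abs_u_sub (ccb_mono (by linarith) hx) ⟨hy.1, h1 hy.2⟩ hy.2
  rw [pot_e H φ hy.1] at h2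
  rw [sI]
  linarith [(abs_le.1 h3).1]

/-- comparison of the suprema in two charts -/
theorem sI_cmp [T2Space M] {κ : ℝ} (hκ : 0 ≤ κ) (hφ : QP H univ φ) (hd : Small S d)
    (h1 : ∀ x, κ * Real.log d ≤ φ x) (h2 : ∀ x, φ x ≤ 0) (hj : x ∈ S.W j (7 * S.R))
    (hk : x ∈ S.W k (7 * S.R)) : sI H d φ (S.ch j) x ≤ sI H d φ (S.ch k) x +
      (S.C + S.C * (S.L * 2) + 4 * (1 + κ) * Real.log (S.L * 2)) := by
  have hR := S.R_pos
  have hC := S.C_pos
  have hL := S.one_le_L
  have d0 := hd.pos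
  have d1 := hd.lt'
  have s1 := S.ball_sub hk (d := S.R) (by linarith)
  have key := sI_le (φ := φ) d0.le (by linarith) hj
    (b := sI H d φ (S.ch k) x + S.C * (S.L * 2) + 4 * (1 + κ) * Real.log (S.L * 2)) fun y hy => by
    have a1 := S.inc hj hk hd.lt (ccb_sub_cb (by linarith) hy)
    have a2 : B.e (S.ch k) y ∈ closedBall (B.e (S.ch k) x) (S.L * 2 * d) := by
      rw [mul_assoc]; exact ball_subset_closedBall a1.2
    have a0 : S.L * 2 * d ≤ S.R := by rw [mul_assoc]; exact hd.lt.le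
    have a3 := three (B.e (S.ch k)).open_target (by simpa only [chU_univ] using hφ.cp (S.ch k))
      (s1.trans (S.sub k)) (B := S.C - κ * Real.log d) (fun z hz => by
        have b1 := abs_le.1 (S.bd k z (s1 hz))
        have b2 := h1 ((B.e (S.ch k)).symm z)
        have b3 := h2 ((B.e (S.ch k)).symm z)
        rw [pot_apply, abs_le]
        constructor <;> linarith) d0 (by linarith) (by linarith) a0 a2
    have a4 := abs_u_sub (ccb_mono (by linarith) hk)
      ⟨a1.1, s1 (closedBall_subset_closedBall a0 a2)⟩ a2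
    have a5 : S.C * (S.L * 2 * d) ≤ S.C * (S.L * 2) :=
      mul_le_mul_of_nonneg_left (mul_le_of_le_one_right (by linarith) hd.one) hC.le
    have a6 : 2 * (S.C - κ * Real.log d) * Real.log (S.L * 2) / (Real.log S.R - Real.log d) ≤
        4 * (1 + κ) * Real.log (S.L * 2) := by
      have b1 := hd.logR
      have b2 := hd.logC
      have b3 : 0 ≤ Real.log (S.L * 2) := Real.log_nonneg (by linarith)
      rw [div_le_iff₀ (by linarith), mul_right_comm (4 * (1 + κ))]
      refine mul_le_mul_of_nonneg_right ?_ b3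
      nlinarith
    rw [pot_e H φ a1.1] at a3
    rw [sI]
    linarith [(abs_le.1 a4).1]
  linarith [mul_le_of_le_one_right hC.le hd.one]

end one

variable (S) in
/-- **REG** -/
theorem reg [T2Space M] (hH : H.Semipos) {κ : ℝ} (hκ : 0 ≤ κ) :
    ∃ A₀ C₀ : ℝ, 1 ≤ A₀ ∧ ∀ d, Small S d → ∀ φ : M → ℝ, PP H φ → (∀ x, κ * Real.log d ≤ φ x) →
      (∀ x, φ x ≤ 0) → ∃ w : M → ℝ, PP (sc A₀ H) w ∧ (∀ x y, Nb S d x y → φ y - C₀ ≤ w x) ∧
        ∀ x b, (∀ y, Nb S d x y → φ y ≤ b) → w x ≤ b := by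
  classical
  have hR := S.R_pos
  have hC := S.C_pos
  have hL := S.one_le_L
  have hm := S.m_pos
  obtain ⟨C₁, hC₁⟩ : ∃ C₁, C₁ = S.C + S.C * (S.L * 2) + 4 * (1 + κ) * Real.log (S.L * 2) := ⟨_, rfl⟩
  have c0 : 0 ≤ C₁ := by
    have := Real.log_nonneg (show 1 ≤ S.L * 2 by linarith)
    rw [hC₁]; positivity
  obtain ⟨a, a0, ha⟩ : ∃ a : ℝ, 0 ≤ a ∧ a * (3 * S.R ^ 2) = C₁ :=
    ⟨C₁ / (3 * S.R ^ 2), by positivity, div_mul_cancel₀ _ (by positivity)⟩
  have a1 : (1 : ℝ) ≤ 1 * 1 + 1 * (a / S.m) := by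
    have : 0 ≤ a / S.m := by positivity
    linarith
  refine ⟨1 * 1 + 1 * (a / S.m), 2 * S.C + 4 * a * S.R ^ 2, a1, fun d hd φ hφ h1 h2 => ?_⟩
  have d0 := hd.pos
  have d1 := hd.lt'
  have d2 := mul_le_of_le_one_right hC.le hd.one
  have d3 : 0 ≤ S.C * d := by positivity
  have hq := hφ.qp.sc_one.sc_le hH a1
  set t := (S.lf _ hφ.cpt).toFinset with ht
  have ht0 : ∀ j ∉ t, ∀ x ∈ S.W j (8 * S.R), φ x = 0 := fun j hj x hx =>
    image_eq_zero_of_notMem_tsupport fun h => hj (by rw [ht, Finite.mem_toFinset]; exact ⟨x, hx, h⟩)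
  have hsq : ∀ j y, 0 ≤ a * ‖B.e (S.ch j) y - S.c j‖ ^ 2 := fun j y => by positivity
  obtain ⟨G, g1, g2, g3⟩ := glue_fin t (W := fun j => S.V j (3 * S.R))
    (C := fun j => S.W j (2 * S.R))
    (g := fun j y => 1 * sI H d φ (S.ch j) y + 1 * (-a * ‖B.e (S.ch j) y - S.c j‖ ^ 2) - S.C * d) hq
    (fun j _ => ((qp_sI hφ.qp d0.le isOpen_cb (fun y hy => hy.1) fun y hy =>
      (S.ball_sub (cb_sub_ccb hy) (by linarith)).trans (S.sub j)).sc_one.comb
        (qp_sq j (by linarith) a0) zero_le_one zero_le_one).sub_const _)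
    (fun j _ => (S.isCompact_W j (by linarith)).isClosed) (fun j _ => ccb_sub_cb (by linarith))
    fun j _ y hy hy' => by
      obtain ⟨k, hk⟩ := S.cover y
      have b1 : y ∈ S.W j (7 * S.R) := ccb_mono (by linarith) (cb_sub_ccb hy)
      by_cases hkt : k ∈ t
      · refine Or.inr ⟨k, hkt, ccb_mono (by linarith) (cb_sub_ccb hk), ?_⟩
        have b2 := sI_cmp hκ hφ.qp hd h1 h2 b1 (ccb_mono (by linarith) (cb_sub_ccb hk))
        have b3 : 2 * S.R < ‖B.e (S.ch j) y - S.c j‖ := not_le.1 fun h => hy' (mem_ccb.2 ⟨hy.1, h⟩)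
        have b4 := mul_le_mul_of_nonneg_left (pow_le_pow_left₀ (by positivity) b3.le 2) a0
        have b5 := mul_le_mul_of_nonneg_left
          (pow_le_pow_left₀ (norm_nonneg _) (mem_cb.1 hk).2.le 2) a0
        rw [← hC₁] at b2
        nlinarith
      · refine Or.inl ?_
        have b2 := sI_le (φ := φ) (b := 0) d0.le (by linarith) b1 fun y _ => h2 y
        rw [ht0 k hkt y (ccb_mono (by linarith) (cb_sub_ccb hk))]
        linarith [hsq j y]
  have up : ∀ x b, (∀ y, Nb S d x y → φ y ≤ b) → max (G x) (φ x) ≤ b := fun x b h => by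
    have b1 := h x (Nb.self S d0.le x)
    refine max_le (g3 x b b1 fun j _ hj => ?_) b1
    have b2 := sI_le (φ := φ) (b := b) d0.le (by linarith) (ccb_mono (by linarith) hj)
      fun y hy => h y ⟨j, hj, hy⟩
    linarith [hsq j x]
  refine ⟨fun x => max (G x) (φ x), ⟨g1.max hq, HasCompactSupport.intro hφ.cpt fun x hx => ?_⟩,
    ?_, up⟩
  · exact le_antisymm (up x 0 fun y _ => h2 y)
      (le_max_of_le_right (image_eq_zero_of_notMem_tsupport hx).ge)
  · rintro x y ⟨j, hj, hy⟩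
    have b0 : 0 ≤ a * S.R ^ 2 := by positivity
    by_cases hjt : j ∈ t
    · have b1 := g2 j hjt x hj
      have b2 := le_sI hφ.qp.continuous d0.le (by linarith) (ccb_mono (by linarith) hj) hy
      have b3 := mul_le_mul_of_nonneg_left
        (pow_le_pow_left₀ (norm_nonneg _) (mem_ccb.1 hj).2 2) a0
      refine le_max_of_le_left ?_
      nlinarith
    · refine le_max_of_le_right ?_
      rw [ht0 j hjt x (ccb_mono (by linarith) hj)]
      linarith [h2 y]

end

end Crest.Agent.X261.Fin
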